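import Mathlib
import Vale.Agent.P371.Lift.Main
import Vale.Agent.P371.Shell.Approx

/-!
P371: the bound for continuous data from the lifting lemma and a calibration of Riccati paths.
-/

open Set MeasureTheory Filter
open scoped Topology

namespace Vale.Agent.P371

/-- What the calibration proves: a lifted Riccati path from `L` to `-L` on `[a, b]` costs at least
the sum of `L i ^ (2 γ)` divided by the constant. -/
def CalBound (γ : ℝ) (m : ℕ) : Prop :=
  ∀ (N : ℕ) (a b : ℝ) (W : ℝ → Matrix (Fin m) (Fin m) ℝ) (L : Fin N → ℝ)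
    (R : ℝ → Matrix (Fin N) (Fin m) ℝ) (M : ℝ → Matrix (Fin N) (Fin N) ℝ), a ≤ b →
    (∀ μ ν, ContinuousOn (fun x => W x μ ν) (Icc a b)) → (∀ x ∈ Icc a b, (W x).PosSemidef) →
    (∀ i, 0 < L i) → ContinuousOn R (Icc a b) →
    (∀ x, (1 - (R x).transpose * R x).PosSemidef) →
    (∀ x ∈ Icc a b, (M x).IsHermitian ∧ (Matrix.diagonal L - M x).PosSemidef ∧
      (M x + Matrix.diagonal L).PosSemidef) →
    M a = Matrix.diagonal L → M b = -Matrix.diagonal L →
    (∀ x ∈ Icc a b, ∀ i l, HasDerivWithinAt (fun y => M y i l)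
      ((Matrix.diagonal (fun i => L i ^ 2) - M x * M x - R x * W x * (R x).transpose) i l)
      (Icc a b) x) →
    ∑ i, L i ^ (2 * γ) ≤ L1 γ * ∫ x in a..b, trPow (γ + 1 / 2) (W x)

/-- Lifting and calibration give the bound for continuous data. -/
theorem liftBound_of_cal {γ : ℝ} (hγ : 0 < γ) {m : ℕ} (hC : CalBound γ m) : LiftBound γ m := by
  intro N a b W ψ dψ k ν₀ hab hW hWp hdc hd hk _ hν hmass hform
  have hdata : Lift.LiftData a b W ψ dψ k :=
    ⟨hab, hW, hWp, fun j x hx => hasDerivWithinAt_pi.2 fun μ => hd j μ x hx,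
      fun j => continuousOn_pi.2 fun μ => hdc j μ, hk, ⟨ν₀, hν, hmass⟩, hform⟩
  have key : ∀ η > 0, ∑ j, max (k j ^ 2 - η) 0 ^ γ ≤
      L1 γ * ∫ x in a..b, trPow (γ + 1 / 2) (W x) := by
    intro η hη
    obtain ⟨L, R, M, hL, hLk, hR, hRc, hM, hMa, hMb, hMd⟩ := Lift.exists_lift hdata hη
    refine le_trans ?_ (hC N a b W L R M hab hW hWp hL hR hRc hM hMa hMb hMd)
    refine Finset.sum_le_sum fun j _ => ?_
    rw [Real.rpow_mul (hL j).le, Real.rpow_two]
    exact Real.rpow_le_rpow (le_max_right _ _) (max_le (hLk j) (sq_nonneg _)) hγ.le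
  have ht : Tendsto (fun η : ℝ => ∑ j, max (k j ^ 2 - η) 0 ^ γ) (𝓝[>] 0)
      (𝓝 (∑ j, k j ^ (2 * γ))) := by
    have hc : Continuous fun η : ℝ => ∑ j, max (k j ^ 2 - η) 0 ^ γ :=
      continuous_finsetSum _ fun j _ =>
        ((continuous_const.sub continuous_id).max continuous_const).rpow_const
          fun _ => Or.inr hγ.le
    have h0 := (hc.tendsto 0).mono_left (nhdsWithin_le_nhds (s := Ioi (0 : ℝ)))
    have e : ∀ j, max (k j ^ 2 - 0) 0 ^ γ = k j ^ (2 * γ) := fun j => by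
      rw [sub_zero, max_eq_left (sq_nonneg _), Real.rpow_mul (hk j).le, Real.rpow_two]
    rwa [Finset.sum_congr rfl fun j _ => e j] at h0
  exact le_of_tendsto ht (eventually_nhdsWithin_of_forall fun η hη => key η hη)

end Vale.Agent.P371
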